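import Vale.Agent.P022D.PA.Col
import Vale.Agent.P022E.PA.Defs

namespace Vale.Agent.P022E.PA.ColAux
export Vale.Agent.P022D.PA.ColAux (
  dvd_mem mo_add main mo_dvd mem_Jb)
end Vale.Agent.P022E.PA.ColAux

namespace Vale.Agent.P022E.PA
export Vale.Agent.P022D.PA (
  col)
end Vale.Agent.P022E.PA
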