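import Vale.Agent.P022D.PA.Exa
import Vale.Agent.P022E.PA.Defs

namespace Vale.Agent.P022E.PA.Exa
export Vale.Agent.P022D.PA.Exa (
  map_mem kill cv_mul step)
end Vale.Agent.P022E.PA.Exa

namespace Vale.Agent.P022E.PA
export Vale.Agent.P022D.PA (
  exa eta)
end Vale.Agent.P022E.PA
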