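import Vale.Agent.P022D.PA.Reg
import Vale.Agent.P022E.PA.Defs

namespace Vale.Agent.P022E.PA
export Vale.Agent.P022D.PA (
  Rr mem_update Jb_update reg fin1)
end Vale.Agent.P022E.PA

namespace Vale.Agent.P022E.PA.Cv
export Vale.Agent.P022D.PA.Cv (
  pow)
end Vale.Agent.P022E.PA.Cv
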