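import Vale.Agent.P022D.PA.Tight
import Vale.Agent.P022E.PA.Defs

namespace Vale.Agent.P022E.PA.Ti
export Vale.Agent.P022D.PA.Ti (
  step mulD Jb_le mem_Jb)
end Vale.Agent.P022E.PA.Ti

namespace Vale.Agent.P022E.PA
export Vale.Agent.P022D.PA (
  ti0 tib ti1)
end Vale.Agent.P022E.PA
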