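import Vale.Agent.P022D.PA.Top

namespace Vale.Agent.P022E.PA
export Vale.Agent.P022D.PA (
  pow_not_mem exists_lim mem_Lim le_Lim Lim exists_prime eq_of_le Lim_sup ch not_mem_mul
  Lim_mono descent labels small)
end Vale.Agent.P022E.PA
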